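import Vale.Agent.P247.H845.Grd1
import Vale.Agent.P247.H324.MG.Def

/-!
# P247 (helper845): interior gradient estimate (package PUI-GRD)
-/

open MeasureTheory Set Metric Filter Topology
open scoped ContDiff ENNReal

noncomputable section

namespace Vale.Agent.P247.H845

open Vale.Agent.P272.CT Vale.Agent.P247.H324

theorem norm_le_parts (L : ℂ →L[ℝ] ℂ) : ‖L‖ ≤ ‖pz L‖ + ‖pzb L‖ := by
  refine L.opNorm_le_bound (by positivity) fun v => ?_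
  rw [pz_pzb L v]
  refine (norm_add_le _ _).trans ?_
  rw [norm_smul, norm_smul, RCLike.norm_conj]
  nlinarith [norm_nonneg v]

/-- the frozen change of variables -/
def TT (z1 μ1 : ℂ) (s : ℝ) (ζ : ℂ) : ℂ := z1 + (s : ℂ) * (ζ - μ1 * (starRingEnd ℂ) ζ)

/-- its derivative -/
def TD (μ1 : ℂ) (s : ℝ) : ℂ →L[ℝ] ℂ :=
  (s : ℂ) • (ContinuousLinearMap.id ℝ ℂ - μ1 • (Complex.conjCLE : ℂ →L[ℝ] ℂ))

theorem hasFDerivAt_TT (z1 μ1 : ℂ) (s : ℝ) (ζ : ℂ) : HasFDerivAt (TT z1 μ1 s) (TD μ1 s) ζ := by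
  have h1 : HasFDerivAt (fun z : ℂ => (starRingEnd ℂ) z) (Complex.conjCLE : ℂ →L[ℝ] ℂ) ζ :=
    (Complex.conjCLE : ℂ →L[ℝ] ℂ).hasFDerivAt
  exact (((hasFDerivAt_id ζ).sub (h1.const_mul μ1)).const_mul (s : ℂ)).const_add z1

theorem TD_parts (μ1 : ℂ) (s : ℝ) : pz (TD μ1 s) = s ∧ pzb (TD μ1 s) = -(s * μ1) := by
  refine pz_eq_of fun v => ?_
  simp [TD]
  ring

theorem norm_TT {z1 μ1 : ℂ} {s : ℝ} (hs : 0 < s) (hμ : ‖μ1‖ ≤ 1) (ζ : ℂ) :
    ‖TT z1 μ1 s ζ - z1‖ ≤ 2 * s * ‖ζ‖ := by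
  have h1 : TT z1 μ1 s ζ - z1 = (s : ℂ) * (ζ - μ1 * (starRingEnd ℂ) ζ) := by
    unfold TT
    ring
  rw [h1, norm_mul, Complex.norm_real, Real.norm_of_nonneg hs.le]
  have h2 : ‖ζ - μ1 * (starRingEnd ℂ) ζ‖ ≤ 2 * ‖ζ‖ := by
    refine (norm_sub_le _ _).trans ?_
    rw [norm_mul, RCLike.norm_conj]
    nlinarith [norm_nonneg ζ]
  nlinarith

/-- ONE POINT ESTIMATE for the Beltrami equation. -/
theorem center_beltrami {α : ℝ} (hα : 0 < α) (hα1 : α < 1) : ∃ c : ℝ, 0 ≤ c ∧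
    ∀ (κ L C P s : ℝ) (μ a w : ℂ → ℂ) (z1 : ℂ), 0 ≤ κ → κ < 1 → 0 ≤ L → 0 ≤ C → 0 ≤ P → 0 < s →
      2 * s ≤ 1 → ContDiffOn ℝ 1 w (ball z1 (2 * s)) →
      (∀ z ∈ ball z1 (2 * s), ‖w z - w z1‖ ≤ C * ‖z - z1‖ ^ α) → ‖μ z1‖ ≤ κ → ‖a z1‖ ≤ L →
      (∀ z ∈ ball z1 (2 * s), ‖μ z - μ z1‖ ≤ L * (‖z - z1‖ + ‖w z - w z1‖) ∧
        ‖a z - a z1‖ ≤ L * (‖z - z1‖ + ‖w z - w z1‖)) →
      (∀ z ∈ ball z1 (2 * s), pzb (fderiv ℝ w z) = μ z * pz (fderiv ℝ w z) + a z) →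
      (∀ z ∈ ball z1 (2 * s), ‖pz (fderiv ℝ w z)‖ ≤ P) →
      (1 - κ ^ 2) * ‖pz (fderiv ℝ w z1)‖ ≤ κ * L + c * (C * (2 * s) ^ α / s +
        L * (1 + C) * (2 * s) ^ α * (P + 1) + L) := by
  obtain ⟨c, hc0, hc⟩ := center_unit hα hα1
  refine ⟨c, hc0, fun κ L C P s μ a w z1 hκ hκ1 hL hC hP hs hs1 hw hosc hμ1 ha1 hhol heq hbd => ?_⟩
  have hμ1' : ‖μ z1‖ ≤ 1 := hμ1.trans hκ1.le
  set T := TT z1 (μ z1) s with hT
  have h2s : 0 < 2 * s := by linarith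
  have hTn : ∀ ζ, ‖T ζ - z1‖ ≤ 2 * s * ‖ζ‖ := norm_TT hs hμ1'
  have hTm : ∀ ζ ∈ ball (0:ℂ) 1, T ζ ∈ ball z1 (2 * s) := by
    intro ζ hζ
    rw [mem_ball_zero_iff] at hζ
    rw [mem_ball, dist_eq_norm]
    refine (hTn ζ).trans_lt ?_
    nlinarith
  have hT0 : T 0 = z1 := by simp [hT, TT]
  have hwd : ∀ z ∈ ball z1 (2 * s), HasFDerivAt w (fderiv ℝ w z) z := fun z hz =>
    ((hw.differentiableOn (by simp)).differentiableAt (isOpen_ball.mem_nhds hz)).hasFDerivAt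
  set V : ℂ → ℂ := fun ζ => w (T ζ) with hV
  have hVd : ∀ ζ ∈ ball (0:ℂ) 1, HasFDerivAt V ((fderiv ℝ w (T ζ)).comp (TD (μ z1) s)) ζ :=
    fun ζ hζ => (hwd _ (hTm ζ hζ)).comp ζ (hasFDerivAt_TT _ _ _ ζ)
  have hTc : ContDiff ℝ 1 T := by
    have h1 : ContDiff ℝ 1 fun z : ℂ => (starRingEnd ℂ) z := Complex.conjCLE.contDiff
    exact contDiff_const.add (contDiff_const.mul (contDiff_id.sub (contDiff_const.mul h1)))
  have hVc : ContDiffOn ℝ 1 V (ball 0 1) := hw.comp hTc.contDiffOn hTm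
  have hparts : ∀ ζ ∈ ball (0:ℂ) 1,
      pz (fderiv ℝ V ζ) = s * pz (fderiv ℝ w (T ζ)) -
        (s * (starRingEnd ℂ) (μ z1)) * pzb (fderiv ℝ w (T ζ)) ∧
      pzb (fderiv ℝ V ζ) = s * ((μ (T ζ) - μ z1) * pz (fderiv ℝ w (T ζ)) + a (T ζ)) := by
    intro ζ hζ
    rw [(hVd ζ hζ).fderiv]
    obtain ⟨h1, h2⟩ := pz_comp (fderiv ℝ w (T ζ)) (TD (μ z1) s)
    obtain ⟨h3, h4⟩ := TD_parts (μ z1) s
    rw [h1, h2, h3, h4]
    simp only [smul_eq_mul, map_neg, map_mul, Complex.conj_ofReal]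
    refine ⟨by ring, ?_⟩
    rw [heq _ (hTm ζ hζ)]
    ring
  have h0b : (0:ℂ) ∈ ball (0:ℂ) 1 := mem_ball_self one_pos
  obtain ⟨hp0, hpb0⟩ := hparts 0 h0b
  rw [hT0] at hp0 hpb0
  rw [sub_self, zero_mul, zero_add] at hpb0
  have hsn : ‖(s : ℂ)‖ = s := by rw [Complex.norm_real, Real.norm_of_nonneg hs.le]
  set B : ℝ := C * (2 * s) ^ α with hB
  set K : ℝ := s * (L * (1 + C) * (2 * s) ^ α * (P + 1)) with hK
  have hB0 : 0 ≤ B := by positivity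
  have hK0 : 0 ≤ K := by positivity
  have hmain := hc V B K hB0 hK0 hVc (fun ζ hζ => by
    change ‖w (T ζ) - w (T 0)‖ ≤ B
    rw [hT0]
    refine (hosc _ (hTm ζ hζ)).trans ?_
    have h1 := hTm ζ hζ
    rw [mem_ball, dist_eq_norm] at h1
    rw [hB]
    gcongr) (fun ζ hζ => by
    rw [(hparts ζ hζ).2, hpb0]
    have h1 := hTm ζ hζ
    have h1' := h1
    rw [mem_ball, dist_eq_norm] at h1'
    obtain ⟨h2, h3⟩ := hhol _ h1
    have h4 := hosc _ h1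
    have h5 : ‖T ζ - z1‖ ≤ ‖T ζ - z1‖ ^ α := by
      rcases eq_or_lt_of_le (norm_nonneg (T ζ - z1)) with h0 | h0
      · rw [← h0, Real.zero_rpow hα.ne']
      · have := Real.rpow_le_rpow_of_exponent_ge h0 (h1'.le.trans hs1) hα1.le
        rwa [Real.rpow_one] at this
    have h6 : ‖T ζ - z1‖ ^ α ≤ (2 * s) ^ α * ‖ζ‖ ^ α := by
      rw [← Real.mul_rpow h2s.le (norm_nonneg _)]
      exact Real.rpow_le_rpow (norm_nonneg _) (hTn ζ) hα.le
    have h7 : ‖T ζ - z1‖ + ‖w (T ζ) - w z1‖ ≤ (1 + C) * ((2 * s) ^ α * ‖ζ‖ ^ α) := by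
      calc ‖T ζ - z1‖ + ‖w (T ζ) - w z1‖ ≤ ‖T ζ - z1‖ ^ α + C * ‖T ζ - z1‖ ^ α :=
            add_le_add h5 h4
        _ = (1 + C) * ‖T ζ - z1‖ ^ α := by ring
        _ ≤ _ := by gcongr
    have h8 : ‖μ (T ζ) - μ z1‖ ≤ L * ((1 + C) * ((2 * s) ^ α * ‖ζ‖ ^ α)) :=
      h2.trans (by gcongr)
    have h9 : ‖a (T ζ) - a z1‖ ≤ L * ((1 + C) * ((2 * s) ^ α * ‖ζ‖ ^ α)) :=
      h3.trans (by gcongr)
    have e1 : (s : ℂ) * ((μ (T ζ) - μ z1) * pz (fderiv ℝ w (T ζ)) + a (T ζ)) - s * a z1 =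
        s * ((μ (T ζ) - μ z1) * pz (fderiv ℝ w (T ζ)) + (a (T ζ) - a z1)) := by ring
    rw [e1, norm_mul, hsn]
    have h10 : ‖(μ (T ζ) - μ z1) * pz (fderiv ℝ w (T ζ)) + (a (T ζ) - a z1)‖ ≤
        L * ((1 + C) * ((2 * s) ^ α * ‖ζ‖ ^ α)) * P + L * ((1 + C) * ((2 * s) ^ α * ‖ζ‖ ^ α)) := by
      refine (norm_add_le _ _).trans (add_le_add ?_ h9)
      rw [norm_mul]
      exact mul_le_mul h8 (hbd _ h1) (norm_nonneg _) (by positivity)
    calc s * ‖(μ (T ζ) - μ z1) * pz (fderiv ℝ w (T ζ)) + (a (T ζ) - a z1)‖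
        ≤ s * (L * ((1 + C) * ((2 * s) ^ α * ‖ζ‖ ^ α)) * P +
          L * ((1 + C) * ((2 * s) ^ α * ‖ζ‖ ^ α))) := by gcongr
      _ = K * ‖ζ‖ ^ α := by rw [hK]; ring)
  rw [hp0, hpb0, heq z1 (mem_ball_self h2s)] at hmain
  set p := pz (fderiv ℝ w z1) with hp
  have e2 : (s : ℂ) * p - s * (starRingEnd ℂ) (μ z1) * (μ z1 * p + a z1) =
      s * ((1 - (starRingEnd ℂ) (μ z1) * μ z1) * p - (starRingEnd ℂ) (μ z1) * a z1) := by ring
  rw [e2, norm_mul, hsn, norm_mul, hsn] at hmain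
  have h11 : (1 - κ ^ 2) * ‖p‖ - κ * L ≤
      ‖(1 - (starRingEnd ℂ) (μ z1) * μ z1) * p - (starRingEnd ℂ) (μ z1) * a z1‖ := by
    have h12 := norm_sub_norm_le ((1 - (starRingEnd ℂ) (μ z1) * μ z1) * p)
      ((starRingEnd ℂ) (μ z1) * a z1)
    rw [norm_mul, norm_mul, RCLike.norm_conj] at h12
    have h13 : 1 - κ ^ 2 ≤ ‖1 - (starRingEnd ℂ) (μ z1) * μ z1‖ := by
      have h14 := norm_sub_norm_le (1 : ℂ) ((starRingEnd ℂ) (μ z1) * μ z1)
      rw [norm_one, norm_mul, RCLike.norm_conj] at h14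
      nlinarith [norm_nonneg (μ z1)]
    have h15 : ‖μ z1‖ * ‖a z1‖ ≤ κ * L := mul_le_mul hμ1 ha1 (norm_nonneg _) hκ
    nlinarith [norm_nonneg p, mul_le_mul_of_nonneg_right h13 (norm_nonneg p)]
  have h16 : s * ((1 - κ ^ 2) * ‖p‖ - κ * L) ≤ c * (B + K + s * L) := by
    refine (mul_le_mul_of_nonneg_left h11 hs.le).trans (hmain.trans ?_)
    gcongr
  have h17 : c * (B + K + s * L) = s * (c * (C * (2 * s) ^ α / s +
      L * (1 + C) * (2 * s) ^ α * (P + 1) + L)) := by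
    rw [hB, hK]
    field_simp
  rw [h17] at h16
  have h18 := le_of_mul_le_mul_left h16 hs
  linarith

/-- the arithmetic at the maximum point -/
theorem arith {κ L C α c θ d M p : ℝ} (hα : 0 < α) (hα1 : α < 1) (hκ : 0 ≤ κ)
    (hκ2 : 0 < 1 - κ ^ 2) (hL : 0 ≤ L) (hC : 0 ≤ C) (hc0 : 0 ≤ c) (hθ0 : 0 < θ) (hθ1 : θ ≤ 1)
    (hθα : θ ^ α ≤ (1 - κ ^ 2) / (4 * (c * L * (1 + C) + 1))) (hd : 0 < d) (hd1 : d ≤ 1)
    (hM0 : 0 ≤ M) (hpM : d * p = M)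
    (hres : (1 - κ ^ 2) * p ≤ κ * L + c * (C * (θ * d) ^ α / (θ * d / 2) +
      L * (1 + C) * (θ * d) ^ α * (2 * M / d + 1) + L)) :
    M ≤ 2 / (1 - κ ^ 2) * (κ * L + c * L + 2 * c * C * θ ^ (α - 1) + c * L * (1 + C)) * d ^ α := by
  have hcL : 0 ≤ c * L * (1 + C) := by positivity
  have hda : (θ * d) ^ α = θ ^ α * d ^ α := Real.mul_rpow hθ0.le hd.le
  have hdα : d ≤ d ^ α := by
    have := Real.rpow_le_rpow_of_exponent_ge hd hd1 hα1.le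
    rwa [Real.rpow_one] at this
  have hdα1 : d ^ α ≤ 1 := Real.rpow_le_one hd.le hd1 hα.le
  have hdα0 : 0 < d ^ α := Real.rpow_pos_of_pos hd _
  have hθα1 : θ ^ α ≤ 1 := Real.rpow_le_one hθ0.le hθ1 hα.le
  have hθα0 : 0 < θ ^ α := Real.rpow_pos_of_pos hθ0 _
  have e2 : θ ^ (α - 1) = θ ^ α / θ := by
    rw [Real.rpow_sub hθ0, Real.rpow_one]
  set S : ℝ := θ ^ (α - 1) with hS
  rw [hda] at hres
  set a : ℝ := θ ^ α with ha
  set b : ℝ := d ^ α with hb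
  -- multiply by `d`
  have h1 : (1 - κ ^ 2) * M ≤ d * (κ * L + c * L) + 2 * c * C * S * b +
      c * L * (1 + C) * (a * b) * (2 * M + d) := by
    have h2 := mul_le_mul_of_nonneg_left hres hd.le
    have e1 : d * ((1 - κ ^ 2) * p) = (1 - κ ^ 2) * M := by rw [← hpM]; ring
    have e3 : d * (κ * L + c * (C * (a * b) / (θ * d / 2) +
        L * (1 + C) * (a * b) * (2 * M / d + 1) + L)) =
        d * (κ * L + c * L) + 2 * c * C * S * b +
          c * L * (1 + C) * (a * b) * (2 * M + d) := by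
      rw [e2]
      field_simp
      ring
    rw [e1, e3] at h2
    exact h2
  have h5 : c * L * (1 + C) * (a * b) ≤ (1 - κ ^ 2) / 4 := by
    have h4 : c * L * (1 + C) * a ≤ (1 - κ ^ 2) / 4 := by
      have h41 : (c * L * (1 + C) + 1) * a ≤ (1 - κ ^ 2) / 4 := by
        calc (c * L * (1 + C) + 1) * a ≤
            (c * L * (1 + C) + 1) * ((1 - κ ^ 2) / (4 * (c * L * (1 + C) + 1))) := by gcongr
          _ = (1 - κ ^ 2) / 4 := by field_simp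
      linarith
    calc c * L * (1 + C) * (a * b) = (c * L * (1 + C) * a) * b := by ring
      _ ≤ (c * L * (1 + C) * a) * 1 := by gcongr
      _ ≤ _ := by linarith
  have h3 : c * L * (1 + C) * (a * b) * (2 * M) ≤ (1 - κ ^ 2) / 2 * M := by
    calc c * L * (1 + C) * (a * b) * (2 * M) ≤ (1 - κ ^ 2) / 4 * (2 * M) := by gcongr
      _ = _ := by ring
  have h6 : c * L * (1 + C) * (a * b) * d ≤ c * L * (1 + C) * b := by
    have h7 : (a * b) * d ≤ b := by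
      calc (a * b) * d ≤ (1 * b) * 1 := by gcongr
        _ = b := by ring
    calc c * L * (1 + C) * (a * b) * d = c * L * (1 + C) * ((a * b) * d) := by ring
      _ ≤ _ := by gcongr
  have h8 : d * (κ * L + c * L) ≤ (κ * L + c * L) * b := by
    have : 0 ≤ κ * L + c * L := by positivity
    calc d * (κ * L + c * L) = (κ * L + c * L) * d := by ring
      _ ≤ _ := by gcongr
  have h9 : (1 - κ ^ 2) / 2 * M ≤ (κ * L + c * L + 2 * c * C * S + c * L * (1 + C)) * b := by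
    have e4 : c * L * (1 + C) * (a * b) * (2 * M + d) =
      c * L * (1 + C) * (a * b) * (2 * M) + c * L * (1 + C) * (a * b) * d := by ring
    rw [e4] at h1
    have e5 : (κ * L + c * L + 2 * c * C * S + c * L * (1 + C)) * b =
      (κ * L + c * L) * b + 2 * c * C * S * b + c * L * (1 + C) * b := by ring
    rw [e5]
    linarith
  have e1 : 2 / (1 - κ ^ 2) * (κ * L + c * L + 2 * c * C * S + c * L * (1 + C)) * b =
    2 / (1 - κ ^ 2) * ((κ * L + c * L + 2 * c * C * S + c * L * (1 + C)) * b) := by ring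
  have e6 : M = 2 / (1 - κ ^ 2) * ((1 - κ ^ 2) / 2 * M) := by field_simp
  rw [e1]
  calc M = 2 / (1 - κ ^ 2) * ((1 - κ ^ 2) / 2 * M) := e6
    _ ≤ _ := mul_le_mul_of_nonneg_left h9 (by positivity)

/-- PUI-GRD -/
theorem grd : GRD_statement := by
  intro κ L C α hκ hκ1 hL hC hα hα1
  obtain ⟨c, hc0, hc⟩ := center_beltrami hα hα1
  have hκ2 : 0 < 1 - κ ^ 2 := by nlinarith
  set x : ℝ := (1 - κ ^ 2) / (4 * (c * L * (1 + C) + 1)) with hx
  have hcL : 0 ≤ c * L * (1 + C) := by positivity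
  have hx0 : 0 < x := by positivity
  set θ : ℝ := min (1 / 2) (x ^ (1 / α)) with hθ
  have hθ0 : 0 < θ := lt_min (by norm_num) (Real.rpow_pos_of_pos hx0 _)
  have hθ2 : θ ≤ 1 / 2 := min_le_left _ _
  have hθα : θ ^ α ≤ x := by
    have h1 : θ ^ α ≤ (x ^ (1 / α)) ^ α :=
      Real.rpow_le_rpow hθ0.le (min_le_right _ _) hα.le
    rwa [← Real.rpow_mul hx0.le, one_div, inv_mul_cancel₀ hα.ne', Real.rpow_one] at h1
  set C3 : ℝ := 2 / (1 - κ ^ 2) * (κ * L + c * L + 2 * c * C * θ ^ (α - 1) +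
    c * L * (1 + C)) with hC3
  have hC30 : 0 ≤ C3 := by positivity
  refine ⟨4 * C3 + L + 1, by positivity, ?_⟩
  intro m A z0 ρ w hρ hρ1 hbd hhol hw hosc heq
  set r : ℝ := ρ / 2 with hr
  have hr0 : 0 < r := by positivity
  have hrρ : r < ρ := by linarith
  have hsub : closedBall z0 r ⊆ ball z0 ρ := closedBall_subset_ball hrρ
  have hfd : ContinuousOn (fun z => fderiv ℝ w z) (ball z0 ρ) :=
    hw.continuousOn_fderiv_of_isOpen isOpen_ball (le_refl _)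
  have hpz0 : Continuous (fun T : ℂ →L[ℝ] ℂ => pz T) := by
    unfold pz
    fun_prop
  have hpzc : ContinuousOn (fun z => pz (fderiv ℝ w z)) (ball z0 ρ) :=
    hpz0.comp_continuousOn hfd
  have hcont : ContinuousOn (fun z => (r - ‖z - z0‖) * ‖pz (fderiv ℝ w z)‖) (closedBall z0 r) :=
    ((continuous_const.sub (continuous_id.sub continuous_const).norm).continuousOn).mul
      (hpzc.mono hsub).norm
  obtain ⟨z1, hz1, hmax⟩ := (isCompact_closedBall z0 r).exists_isMaxOn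
    ⟨z0, mem_closedBall_self hr0.le⟩ hcont
  set M : ℝ := (r - ‖z1 - z0‖) * ‖pz (fderiv ℝ w z1)‖ with hM
  have hmax' : ∀ z ∈ closedBall z0 r, (r - ‖z - z0‖) * ‖pz (fderiv ℝ w z)‖ ≤ M := hmax
  have hz1' : ‖z1 - z0‖ ≤ r := by rwa [mem_closedBall, dist_eq_norm] at hz1
  -- the bound of `M`
  have hMb : M ≤ C3 * ρ ^ α := by
    obtain ⟨d, hd⟩ : ∃ d, d = r - ‖z1 - z0‖ := ⟨_, rfl⟩
    have hd0 : 0 ≤ d := by linarith
    have hdρ : d ≤ ρ := by linarith [norm_nonneg (z1 - z0)]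
    rw [← hd] at hM
    rcases eq_or_lt_of_le hd0 with h0 | hdpos
    · have : M = 0 := by rw [hM, ← h0, zero_mul]
      rw [this]
      positivity
    · have hd1 : d ≤ 1 := hdρ.trans hρ1
      have hθd : θ * d ≤ d / 2 := by nlinarith
      have hθd0 : 0 < θ * d := by positivity
      have hball : ∀ z ∈ ball z1 (2 * (θ * d / 2)), z ∈ ball z0 ρ ∧ z ∈ closedBall z0 r ∧
          d / 2 ≤ r - ‖z - z0‖ := by
        intro z hz
        rw [mem_ball, dist_eq_norm] at hz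
        have h1 : ‖z - z0‖ ≤ ‖z - z1‖ + ‖z1 - z0‖ := by
          have := norm_add_le (z - z1) (z1 - z0)
          rwa [sub_add_sub_cancel] at this
        have h2 : d / 2 ≤ r - ‖z - z0‖ := by linarith
        have h3 : ‖z - z0‖ ≤ r := by linarith
        have h4 : z ∈ closedBall z0 r := by rwa [mem_closedBall, dist_eq_norm]
        exact ⟨hsub h4, h4, h2⟩
      have hz1m : z1 ∈ ball z0 ρ := hsub hz1
      have hM0 : 0 ≤ M := by rw [hM]; positivity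
      have hres := hc κ L C (2 * M / d) (θ * d / 2) (fun z => m (z, w z)) (fun z => A (z, w z))
        w z1 hκ hκ1 hL hC (by positivity) (by positivity) (by linarith)
        (hw.mono fun z hz => (hball z hz).1)
        (fun z hz => hosc z (hball z hz).1 z1 hz1m) (hbd z1 hz1m).1 (hbd z1 hz1m).2
        (fun z hz => hhol z (hball z hz).1 z1 hz1m) (fun z hz => heq z (hball z hz).1)
        (fun z hz => by
          obtain ⟨-, h5, h6⟩ := hball z hz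
          have h7 := hmax' z h5
          rw [le_div_iff₀ hdpos]
          have h8 := mul_le_mul_of_nonneg_right h6 (norm_nonneg (pz (fderiv ℝ w z)))
          linarith)
      have e1 : 2 * (θ * d / 2) = θ * d := by ring
      rw [e1] at hres
      have h10 := arith hα hα1 hκ hκ2 hL hC hc0 hθ0 (by linarith) hθα hdpos hd1 hM0 hM.symm hres
      exact h10.trans (mul_le_mul_of_nonneg_left (Real.rpow_le_rpow hd0 hdρ hα.le) hC30)
  -- conclusion at `z0`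
  have h1 := hmax' z0 (mem_closedBall_self hr0.le)
  rw [sub_self, norm_zero, sub_zero] at h1
  have h2 : ‖pz (fderiv ℝ w z0)‖ ≤ 2 * C3 * ρ ^ (α - 1) := by
    have h3 : r * ‖pz (fderiv ℝ w z0)‖ ≤ C3 * ρ ^ α := h1.trans hMb
    have h4 : ρ ^ (α - 1) = ρ ^ α / ρ := by rw [Real.rpow_sub hρ, Real.rpow_one]
    rw [h4, mul_div_assoc', le_div_iff₀ hρ]
    rw [hr] at h3
    linarith
  have hz0 : z0 ∈ ball z0 ρ := mem_ball_self hρ
  have h5 : ‖pzb (fderiv ℝ w z0)‖ ≤ ‖pz (fderiv ℝ w z0)‖ + L := by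
    rw [heq z0 hz0]
    refine (norm_add_le _ _).trans (add_le_add ?_ (hbd z0 hz0).2)
    rw [norm_mul]
    have h6 : ‖m (z0, w z0)‖ ≤ 1 := (hbd z0 hz0).1.trans hκ1.le
    exact mul_le_of_le_one_left (norm_nonneg _) h6
  have h7 : 1 ≤ ρ ^ (α - 1) :=
    Real.one_le_rpow_of_pos_of_le_one_of_nonpos hρ hρ1 (by linarith)
  have h8 := norm_le_parts (fderiv ℝ w z0)
  calc ‖fderiv ℝ w z0‖ ≤ 2 * C3 * ρ ^ (α - 1) + (2 * C3 * ρ ^ (α - 1) + L) := by linarith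
    _ = 4 * C3 * ρ ^ (α - 1) + L * 1 := by ring
    _ ≤ 4 * C3 * ρ ^ (α - 1) + L * ρ ^ (α - 1) := by gcongr
    _ ≤ (4 * C3 + L + 1) * ρ ^ (α - 1) := by linarith [h7]

end Vale.Agent.P247.H845
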