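import Vale.Agent.P272.CT.Weak
import Vale.Agent.P247.H324.MG.Belt2

/-!
# P247 (helper845): one-point gradient estimate for `∂̄`
-/

open MeasureTheory Set Metric Filter Topology
open scoped ContDiff ENNReal

noncomputable section

namespace Vale.Agent.P247.H845

open Vale.Agent.P272.CT Vale.Agent.P247.H324

/-- `|z|^(α-2)` is integrable on balls -/
theorem integrableOn_rpow_ball {α : ℝ} (hα : 0 < α) (R : ℝ) :
    IntegrableOn (fun z : ℂ => ‖z‖ ^ (-(2 - α))) (ball (0 : ℂ) R) := by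
  rw [integrableOn_fun_norm_addHaar (volume : Measure ℂ) (f := fun r : ℝ => r ^ (-(2 - α)))]
  rw [Complex.finrank_real_complex]
  have h1 : IntegrableOn (fun x : ℝ => x ^ (α - 1)) (Set.Ioo 0 R) := by
    rcases le_or_gt R 0 with hR | hR
    · rw [Ioo_eq_empty (not_lt.2 hR)]
      exact integrableOn_empty
    · have h3 : IntervalIntegrable (fun x : ℝ => x ^ (α - 1)) volume 0 R :=
        intervalIntegral.intervalIntegrable_rpow' (by linarith)
      rw [intervalIntegrable_iff_integrableOn_Ioo_of_le hR.le] at h3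
      exact h3
  refine h1.congr_fun ?_ measurableSet_Ioo
  intro r hr
  have hr0 : 0 < r := hr.1
  simp only [smul_eq_mul]
  rw [show 2 - 1 = 1 from rfl, pow_one]
  rw [show r * r ^ (-(2 - α)) = r ^ (1:ℝ) * r ^ (-(2 - α)) by rw [Real.rpow_one],
    ← Real.rpow_add hr0]
  congr 1
  ring

/-- the kernel constant -/
def kc (α : ℝ) : ℝ := 2 * ∫ z in ball (0 : ℂ) 2, ‖z‖ ^ (-(2 - α))

theorem kc_nonneg (α : ℝ) : 0 ≤ kc α := by
  unfold kc
  have : 0 ≤ ∫ z in ball (0 : ℂ) 2, ‖z‖ ^ (-(2 - α)) :=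
    integral_nonneg fun z => Real.rpow_nonneg (norm_nonneg _) _
  linarith

theorem kernel_bound {α : ℝ} (hα : 0 < α) (_hα1 : α < 1) {w : ℂ} (hw : ‖w‖ ≤ 1) :
    IntegrableOn (fun z : ℂ => ‖z‖ ^ (-(2 - α)) + ‖z - w‖ ^ (-(2 - α))) (ball (0 : ℂ) 1) ∧
    ∫ z in ball (0 : ℂ) 1, (‖z‖ ^ (-(2 - α)) + ‖z - w‖ ^ (-(2 - α))) ≤ kc α := by
  have h1 := integrableOn_rpow_ball hα 2
  have h2 : IntegrableOn (fun z : ℂ => ‖z‖ ^ (-(2 - α))) (ball (0 : ℂ) 1) :=
    h1.mono_set (ball_subset_ball (by norm_num))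
  -- translation
  set f : ℂ → ℝ := fun z => (ball (0 : ℂ) 2).indicator (fun z => ‖z‖ ^ (-(2 - α))) z with hf
  have hfi : Integrable f := (integrable_indicator_iff measurableSet_ball).2 h1
  have hfw : Integrable (fun z => f (z - w)) := hfi.comp_sub_right w
  have hfe : ∀ z ∈ ball (0 : ℂ) 1, f (z - w) = ‖z - w‖ ^ (-(2 - α)) := by
    intro z hz
    rw [mem_ball_zero_iff] at hz
    have h3 : z - w ∈ ball (0 : ℂ) 2 := by
      rw [mem_ball_zero_iff]
      linarith [norm_sub_le z w]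
    simp only [hf]
    rw [indicator_of_mem h3]
  have hf0 : ∀ z, 0 ≤ f z := fun z => indicator_nonneg (fun z _ =>
    Real.rpow_nonneg (norm_nonneg _) _) z
  have h4 : IntegrableOn (fun z : ℂ => ‖z - w‖ ^ (-(2 - α))) (ball (0 : ℂ) 1) :=
    (hfw.integrableOn (s := ball (0 : ℂ) 1)).congr_fun hfe measurableSet_ball
  refine ⟨h2.add h4, ?_⟩
  rw [integral_add h2 h4]
  have h5 : ∫ z in ball (0 : ℂ) 1, ‖z‖ ^ (-(2 - α)) ≤ ∫ z in ball (0 : ℂ) 2, ‖z‖ ^ (-(2 - α)) :=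
    setIntegral_mono_set h1 (Eventually.of_forall fun z => Real.rpow_nonneg (norm_nonneg _) _)
      (ball_subset_ball (by norm_num)).eventuallyLE
  have h6 : ∫ z in ball (0 : ℂ) 1, ‖z - w‖ ^ (-(2 - α)) ≤
      ∫ z in ball (0 : ℂ) 2, ‖z‖ ^ (-(2 - α)) := by
    rw [← setIntegral_congr_fun measurableSet_ball hfe]
    have h7 : ∫ z in ball (0 : ℂ) 1, f (z - w) ≤ ∫ z, f (z - w) :=
      setIntegral_le_integral hfw (Eventually.of_forall fun z => hf0 _)
    have h8 : ∫ z, f (z - w) = ∫ z in ball (0 : ℂ) 2, ‖z‖ ^ (-(2 - α)) := by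
      rw [integral_sub_right_eq_self f w, hf, integral_indicator measurableSet_ball]
    rwa [h8] at h7
  unfold kc
  linarith

/-- the fixed bump function -/
def bp : ContDiffBump (0 : ℂ) := ⟨1/2, 3/4, by norm_num, by norm_num⟩

theorem bp_one {w : ℂ} (h : ‖w‖ ≤ 1/2) : bp w = 1 :=
  bp.one_of_mem_closedBall (by rw [mem_closedBall_zero_iff]; exact h)

theorem bp_zero {w : ℂ} (h : 3/4 ≤ ‖w‖) : bp w = 0 :=
  bp.zero_of_le_dist (by rw [dist_zero_right]; exact h)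

/-- complex valued bump -/
def bpc (z : ℂ) : ℂ := ((bp z : ℝ) : ℂ)

theorem bpc_contDiff : ContDiff ℝ ∞ bpc :=
  Complex.ofRealCLM.contDiff.comp bp.contDiff

theorem bpc_compact : HasCompactSupport bpc := by
  refine HasCompactSupport.intro (isCompact_closedBall (0:ℂ) (3/4)) fun w hw => ?_
  rw [mem_closedBall_zero_iff, not_le] at hw
  unfold bpc
  rw [bp_zero hw.le, Complex.ofReal_zero]

theorem bpc_bound : ∃ M : ℝ, 0 ≤ M ∧ ∀ z, ‖dbar bpc z‖ ≤ M := by
  have h1 := (contDiff_dbar bpc_contDiff).continuous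
  obtain ⟨M, hM⟩ := h1.bounded_above_of_compact_support (hasCompactSupport_dbar bpc_compact)
  exact ⟨M, (norm_nonneg _).trans (hM 0), hM⟩

theorem norm_bpc_le (z : ℂ) : ‖bpc z‖ ≤ 1 := by
  unfold bpc
  rw [Complex.norm_real, Real.norm_of_nonneg bp.nonneg]
  exact bp.le_one

theorem dbar_bpc_zero {z : ℂ} (h : ‖z‖ < 1/2) : dbar bpc z = 0 := by
  have h1 : bpc =ᶠ[𝓝 z] fun _ => 1 := by
    filter_upwards [(isOpen_lt continuous_norm continuous_const).mem_nhds h] with y hy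
    unfold bpc
    rw [bp_one (le_of_lt hy), Complex.ofReal_one]
  unfold dbar
  rw [h1.fderiv_eq]
  simp

theorem dbarV_eq_pzb (V : ℂ → ℂ) (z : ℂ) : dbarV V z = pzb (fderiv ℝ V z) := rfl

/-- ONE POINT ESTIMATE on the unit disc. -/
theorem center_unit {α : ℝ} (hα : 0 < α) (hα1 : α < 1) : ∃ c : ℝ, 0 ≤ c ∧
    ∀ (V : ℂ → ℂ) (B K : ℝ), 0 ≤ B → 0 ≤ K → ContDiffOn ℝ 1 V (ball 0 1) →
      (∀ z ∈ ball (0:ℂ) 1, ‖V z - V 0‖ ≤ B) →
      (∀ z ∈ ball (0:ℂ) 1, ‖pzb (fderiv ℝ V z) - pzb (fderiv ℝ V 0)‖ ≤ K * ‖z‖ ^ α) →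
      ‖pz (fderiv ℝ V 0)‖ ≤ c * (B + K + ‖pzb (fderiv ℝ V 0)‖) := by
  obtain ⟨M, hM0, hM⟩ := bpc_bound
  have hpi := Real.pi_pos
  set M' : ℝ := 2 * M with hM'
  set c : ℝ := (M' + 1) * kc α / Real.pi with hc
  have hkc := kc_nonneg α
  have hc0 : 0 ≤ c := by positivity
  refine ⟨c, hc0, fun V B K hB hK hV hosc hh => ?_⟩
  set g0 := pzb (fderiv ℝ V 0) with hg0
  have h0b : (0:ℂ) ∈ ball (0:ℂ) 1 := mem_ball_self one_pos
  have hVd : ∀ z ∈ ball (0:ℂ) 1, DifferentiableAt ℝ V z := fun z hz =>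
    (hV.differentiableOn (by simp)).differentiableAt (isOpen_ball.mem_nhds hz)
  -- the corrected function
  set V2 : ℂ → ℂ := fun z => V z - V 0 - g0 * (starRingEnd ℂ) z with hV2
  have hcj : ∀ z, HasFDerivAt (fun z : ℂ => g0 * (starRingEnd ℂ) z)
      (g0 • (Complex.conjCLE : ℂ →L[ℝ] ℂ)) z := by
    intro z
    have h1 : HasFDerivAt (fun z : ℂ => (starRingEnd ℂ) z) (Complex.conjCLE : ℂ →L[ℝ] ℂ) z :=
      (Complex.conjCLE : ℂ →L[ℝ] ℂ).hasFDerivAt
    exact h1.const_mul g0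
  have hV2d : ∀ z ∈ ball (0:ℂ) 1, HasFDerivAt V2
      (fderiv ℝ V z - g0 • (Complex.conjCLE : ℂ →L[ℝ] ℂ)) z := fun z hz =>
    ((hVd z hz).hasFDerivAt.sub_const _).sub (hcj z)
  have hcj2 : pzb (g0 • (Complex.conjCLE : ℂ →L[ℝ] ℂ)) = g0 ∧
      pz (g0 • (Complex.conjCLE : ℂ →L[ℝ] ℂ)) = 0 := by
    have := pz_eq_of (L := g0 • (Complex.conjCLE : ℂ →L[ℝ] ℂ)) (a := 0) (b := g0) (fun v => by
      simp [mul_comm])
    exact ⟨this.2, this.1⟩
  have hV2c : ContDiffOn ℝ 1 V2 (ball 0 1) := by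
    refine (hV.sub contDiffOn_const).sub ?_
    exact (contDiff_const.mul Complex.conjCLE.contDiff).contDiffOn
  have hV20 : V2 0 = 0 := by simp [hV2]
  have hV2b : ∀ z ∈ ball (0:ℂ) 1, ‖V2 z‖ ≤ B + ‖g0‖ := by
    intro z hz
    refine (norm_sub_le _ _).trans (add_le_add (hosc z hz) ?_)
    rw [norm_mul, RCLike.norm_conj]
    rw [mem_ball_zero_iff] at hz
    nlinarith [norm_nonneg g0]
  have hV2p : ∀ z ∈ ball (0:ℂ) 1, ‖dbarV V2 z‖ ≤ K * ‖z‖ ^ α := by
    intro z hz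
    rw [dbarV_eq_pzb, (hV2d z hz).fderiv, pzb_sub, hcj2.1]
    exact hh z hz
  -- the cut off function
  set η : ℂ → ℂ := fun z => bpc z • V2 z with hη
  have hη0 : ∀ z, 3/4 < ‖z‖ → η =ᶠ[𝓝 z] fun _ => 0 := by
    intro z hz
    filter_upwards [(isOpen_lt continuous_const continuous_norm).mem_nhds hz] with y hy
    simp only [hη, bpc]
    rw [bp_zero (le_of_lt hy), Complex.ofReal_zero, zero_smul]
  have hηc : ContDiff ℝ 1 η := by
    rw [contDiff_iff_contDiffAt]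
    intro z
    by_cases hz : ‖z‖ < 1
    · have hz' : z ∈ ball (0:ℂ) 1 := by rwa [mem_ball_zero_iff]
      exact ((bpc_contDiff.of_le (by simp)).contDiffAt).smul
        (hV2c.contDiffAt (isOpen_ball.mem_nhds hz'))
    · exact contDiffAt_const.congr_of_eventuallyEq (hη0 z (by linarith [not_lt.1 hz]))
  have hηs : HasCompactSupport η := bpc_compact.smul_right
  set K' : ℝ := M' * (B + ‖g0‖) + K with hK'
  have hBg : 0 ≤ B + ‖g0‖ := by positivity
  have hK'0 : 0 ≤ K' := by positivity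
  -- bound of `∂̄η`
  have hdb : ∀ z, ‖dbar η z‖ ≤ (ball (0:ℂ) 1).indicator (fun z => K' * ‖z‖ ^ α) z := by
    intro z
    by_cases hz : z ∈ ball (0:ℂ) 1
    · rw [indicator_of_mem hz]
      have h1 : dbar η z = dbar bpc z • V2 z + bpc z • dbarV V2 z :=
        dbarV_smul ((bpc_contDiff.differentiable (by simp)) z) (hV2d z hz).differentiableAt
      rw [h1]
      have h2 : ‖dbar bpc z‖ ≤ M' * ‖z‖ ^ α := by
        by_cases hz2 : ‖z‖ < 1/2
        · rw [dbar_bpc_zero hz2, norm_zero]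
          positivity
        · have h3 : (1/2:ℝ) ≤ ‖z‖ ^ α := by
            have h4 : (1/2:ℝ) ^ α ≤ ‖z‖ ^ α :=
              Real.rpow_le_rpow (by norm_num) (not_lt.1 hz2) hα.le
            have h5 : (1/2:ℝ) ^ (1:ℝ) ≤ (1/2:ℝ) ^ α :=
              Real.rpow_le_rpow_of_exponent_ge (by norm_num) (by norm_num) hα1.le
            rw [Real.rpow_one] at h5
            linarith
          calc ‖dbar bpc z‖ ≤ M := hM z
            _ = M' * (1/2) := by rw [hM']; ring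
            _ ≤ M' * ‖z‖ ^ α := by gcongr
      calc ‖dbar bpc z • V2 z + bpc z • dbarV V2 z‖
          ≤ ‖dbar bpc z‖ * ‖V2 z‖ + ‖bpc z‖ * ‖dbarV V2 z‖ := by
            refine (norm_add_le _ _).trans ?_
            rw [norm_smul, norm_smul]
        _ ≤ (M' * ‖z‖ ^ α) * (B + ‖g0‖) + 1 * (K * ‖z‖ ^ α) := by
            gcongr
            · exact hV2b z hz
            · exact norm_bpc_le z
            · exact hV2p z hz
        _ = K' * ‖z‖ ^ α := by rw [hK']; ring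
    · rw [indicator_of_notMem hz]
      rw [mem_ball_zero_iff, not_lt] at hz
      have h1 := hη0 z (by linarith)
      unfold dbar
      rw [h1.fderiv_eq]
      simp
  have hdc : Continuous (dbar η) := continuous_dbar1 hηc
  have hds : HasCompactSupport (dbar η) := hasCompactSupport_dbar hηs
  -- the Lipschitz estimate at `0`
  have hlip : ∀ w : ℂ, ‖w‖ ≤ 1 → ‖η w - η 0‖ ≤ (K' * kc α / Real.pi) * ‖w - 0‖ := by
    intro w hw
    rcases eq_or_ne w 0 with h0 | hw0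
    · simp [h0]
    have h1 := pompeiu_at hηc hηs w
    have h2 := pompeiu_at hηc hηs 0
    have i1 := integrable_inv_sub_mul hdc hds w
    have i2 := integrable_inv_sub_mul hdc hds 0
    have h3 : ∫ z, ((z - w)⁻¹ * dbar η z - (z - 0)⁻¹ * dbar η z) = - Real.pi * (η w - η 0) := by
      rw [integral_sub i1 i2, h1, h2]
      ring
    have h4 : ‖∫ z, ((z - w)⁻¹ * dbar η z - (z - 0)⁻¹ * dbar η z)‖ ≤
        ∫ z in ball (0:ℂ) 1, ‖w‖ * K' * (‖z‖ ^ (-(2 - α)) + ‖z - w‖ ^ (-(2 - α))) := by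
      rw [← integral_indicator measurableSet_ball]
      refine norm_integral_le_of_norm_le ?_ ?_
      · rw [integrable_indicator_iff measurableSet_ball]
        exact (kernel_bound hα hα1 hw).1.const_mul _
      · have hne : ∀ᵐ z : ℂ, z ≠ 0 ∧ z ≠ w := by
          have a1 : ∀ᵐ z : ℂ, z ≠ 0 := by rw [ae_iff]; simp
          have a2 : ∀ᵐ z : ℂ, z ≠ w := by rw [ae_iff]; simp
          filter_upwards [a1, a2] with z h1 h2 using ⟨h1, h2⟩
        filter_upwards [hne] with z hz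
        have e1 : (z - w)⁻¹ * dbar η z - (z - 0)⁻¹ * dbar η z =
            w * ((z - w)⁻¹ * z⁻¹) * dbar η z := by
          have hz1 : z - w ≠ 0 := sub_ne_zero.2 hz.2
          have hz0 : z ≠ 0 := hz.1
          rw [sub_zero]
          field_simp
          ring
        rw [e1, norm_mul, norm_mul, norm_mul, norm_inv, norm_inv]
        by_cases hzb : z ∈ ball (0:ℂ) 1
        · have h5 := hdb z
          rw [indicator_of_mem hzb] at h5 ⊢
          have hzp : 0 < ‖z‖ := norm_pos_iff.2 hz.1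
          have hzw : 0 < ‖z - w‖ := norm_pos_iff.2 (sub_ne_zero.2 hz.2)
          have h6 := rpow_split hzp hzw (α := 1 - α) (a := 1) (by linarith) (by norm_num)
          have h7 : -(1 - α + 1) = -(2 - α) := by ring
          rw [h7] at h6
          have h8 : ‖z‖⁻¹ * ‖z‖ ^ α = ‖z‖ ^ (-(1 - α)) := by
            rw [← Real.rpow_neg_one, ← Real.rpow_add hzp]
            congr 1
            ring
          calc ‖w‖ * (‖z - w‖⁻¹ * ‖z‖⁻¹) * ‖dbar η z‖
              ≤ ‖w‖ * (‖z - w‖⁻¹ * ‖z‖⁻¹) * (K' * ‖z‖ ^ α) := by gcongr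
            _ = ‖w‖ * K' * ((‖z‖⁻¹ * ‖z‖ ^ α) * ‖z - w‖⁻¹) := by ring
            _ = ‖w‖ * K' * (‖z‖ ^ (-(1 - α)) * ‖z - w‖ ^ (-(1:ℝ))) := by
                rw [h8, Real.rpow_neg_one]
            _ ≤ ‖w‖ * K' * (‖z‖ ^ (-(2 - α)) + ‖z - w‖ ^ (-(2 - α))) := by gcongr
        · have h5 := hdb z
          rw [indicator_of_notMem hzb] at h5 ⊢
          have h6 : ‖dbar η z‖ = 0 := le_antisymm h5 (norm_nonneg _)
          rw [h6, mul_zero]
    rw [h3, integral_const_mul] at h4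
    have h5 := (kernel_bound hα hα1 hw).2
    rw [sub_zero]
    have h6 : ‖-(Real.pi : ℂ) * (η w - η 0)‖ = Real.pi * ‖η w - η 0‖ := by
      rw [norm_mul, norm_neg, Complex.norm_real, Real.norm_of_nonneg hpi.le]
    rw [h6] at h4
    rw [div_mul_eq_mul_div, le_div_iff₀ hpi]
    calc ‖η w - η 0‖ * Real.pi = Real.pi * ‖η w - η 0‖ := by ring
      _ ≤ ‖w‖ * K' * ∫ z in ball (0:ℂ) 1, (‖z‖ ^ (-(2 - α)) + ‖z - w‖ ^ (-(2 - α))) := h4
      _ ≤ ‖w‖ * K' * kc α := by gcongr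
      _ = K' * kc α * ‖w‖ := by ring
  have hηd : HasFDerivAt η (fderiv ℝ V 0 - g0 • (Complex.conjCLE : ℂ →L[ℝ] ℂ)) 0 := by
    refine (hV2d 0 h0b).congr_of_eventuallyEq ?_
    filter_upwards [ball_mem_nhds (0:ℂ) (by norm_num : (0:ℝ) < 1/2)] with z hz
    rw [mem_ball_zero_iff] at hz
    simp only [hη, bpc]
    rw [bp_one hz.le, Complex.ofReal_one, one_smul]
  have h9 := hηd.le_of_lip' (C := K' * kc α / Real.pi) (by positivity) (by
    filter_upwards [ball_mem_nhds (0:ℂ) one_pos] with w hw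
    rw [mem_ball_zero_iff] at hw
    exact hlip w hw.le)
  have h10 : pz (fderiv ℝ V 0) = pz (fderiv ℝ V 0 - g0 • (Complex.conjCLE : ℂ →L[ℝ] ℂ)) := by
    rw [pz_sub, hcj2.2, sub_zero]
  rw [h10]
  refine ((norm_pz_le _).trans h9).trans ?_
  rw [hc, hK']
  have h11 : (M' * (B + ‖g0‖) + K) * kc α / Real.pi =
      (M' * (B + ‖g0‖) + K) * (kc α / Real.pi) := by ring
  have h12 : (M' + 1) * kc α / Real.pi * (B + K + ‖g0‖) =
      ((M' + 1) * (B + K + ‖g0‖)) * (kc α / Real.pi) := by ring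
  rw [h11, h12]
  have h13 : 0 ≤ kc α / Real.pi := by positivity
  refine mul_le_mul_of_nonneg_right ?_ h13
  have hM'0 : 0 ≤ M' := by positivity
  nlinarith [mul_nonneg hM'0 hK, norm_nonneg g0]

end Vale.Agent.P247.H845
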